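import Vale.Agent.P181.SZN2.Tools

set_option autoImplicit false

/-!
# P181, SZ: **(N2)** `LBC` from `DecBn` and `LB10`
-/

namespace Vale.Agent.P181.SZN2

open Finset
open Vale.Agent.P181.T4 Vale.Agent.P181.T7 Vale.Agent.P181.T9 Vale.Agent.P181.H280
open Vale.Agent.P181.H463 Vale.Agent.P181.H699.CC

/-- **(N2)** -/
theorem lbc_of (hLB : T9.LB10) (hDec : SZ.DecBn) : SZ.LBC := by
  intro a b n J R0 R1 l m k0 N T lam hlam hsum hl2 hlR hm hR hRn hnJ hJN hmax hmax1 h1 h2 h3 h4'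
    h5 h6 h7 h8 hcount htop
  have h4 : k0 ≤ a := by omega
  have hμa : Antitone (ex lam) := fun s t hst => ex_anti hlam hst
  obtain ⟨g, hg⟩ : ∃ g : ℕ → ℕ, ∀ j, g j = ex lam (j - 1) - ex lam j := ⟨_, fun _ => rfl⟩
  simp only [← hg] at hmax hmax1 h1 h2
  obtain ⟨rho, hr1, hr2, hr3, hr4⟩ := exists_levels g (R := R1) hl2
    (fun j e1 e2 => hmax j e1 (by omega))
  obtain ⟨h, hh⟩ : ∃ h : ℕ → ℕ, ∀ i, h i = min (g (rho i) / (16 * R1 * N)) (k0 / (256 * R1 ^ 2)) :=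
    ⟨_, fun _ => rfl⟩
  have hR3 : 3 ≤ R0 := by omega
  have hR0c : R0 ≤ R0 ^ 3 := by
    calc R0 = R0 ^ 1 := (pow_one _).symm
      _ ≤ R0 ^ 3 := Nat.pow_le_pow_right (by omega) (by norm_num)
  have hRa : R0 < a := by omega
  have ha : 0 < a := by omega
  have hN : 0 < N := lt_of_lt_of_le (Nat.mul_pos ha (by omega)) h5
  have hR1pos : 0 < R1 := by omega
  have hgR1 : ∀ i, 1 ≤ i → i < R1 → g R1 ≤ g (rho i) := fun i e1 e2 => hr4 i e1 e2 R1 e2 le_rfl
  have hh1 : ∀ i, 16 * R1 * N * h i ≤ g (rho i) := by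
    intro i
    rw [hh]
    exact (Nat.mul_le_mul_left _ (min_le_left _ _)).trans (Nat.mul_div_le _ _)
  have hh2 : ∀ i, 256 * R1 ^ 2 * h i ≤ k0 := by
    intro i
    rw [hh]
    exact (Nat.mul_le_mul_left _ (min_le_right _ _)).trans (Nat.mul_div_le _ _)
  obtain ⟨Sh, hSh⟩ : ∃ Sh, Sh = ∑ i ∈ Ico l R1, h i := ⟨_, rfl⟩
  have hSh1 : 256 * R1 * Sh ≤ k0 := digit_sum hR1pos hSh hh2
  have hSh2 : 256 * Sh ≤ k0 := by
    refine le_trans ?_ hSh1
    calc 256 * Sh = 1 * (256 * Sh) := (one_mul _).symm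
      _ ≤ R1 * (256 * Sh) := Nat.mul_le_mul_right _ hR1pos
      _ = 256 * R1 * Sh := by ring
  obtain ⟨A, hA⟩ : ∃ A, A = 20 * N * (k0 + 2 * R0) := ⟨_, rfl⟩
  obtain ⟨C, hC⟩ : ∃ C, C = 46 * R1 * N := ⟨_, rfl⟩
  have hR0N : 300 * (R1 * N) ≤ g R1 := by
    refine le_trans ?_ h1
    calc 300 * (R1 * N) = 100 * 3 * R1 * N := by ring
      _ ≤ 100 * R0 * R0 * N := by gcongr
      _ = 100 * R0 ^ 2 * N := by ring
  have hmk := hmk_lemma (l := l) (h := h) (rho := rho) hR1pos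
    (show C = 46 * (R1 * N) by rw [hC]; ring) hR0N hh1 (by omega) hgR1
  obtain ⟨e, he⟩ : ∃ e : ℕ → ℕ, e = ee l R1 N A C rho h := ⟨_, rfl⟩
  have heg : ∀ j, 1 ≤ j → j ≤ R0 → e j + ex lam j ≤ ex lam (j - 1) := by
    intro j _ _
    have f0 : ex lam j ≤ ex lam (j - 1) := hμa (Nat.sub_le _ _)
    have f1 : e j ≤ g j := by
      rw [he]
      exact ee_le hlR (by rw [hA]; exact h2) hmk j
    rw [hg] at f1
    omega
  have hE : ∑ j ∈ Icc 1 R0, e j = A + N * (4 * Sh + (R1 - l)) + C := by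
    rw [he, hSh]
    exact sum_ee (by omega) hlR hR hr2
  obtain ⟨b1, b2⟩ := n_budget (a := a) (R0 := R0) (R1 := R1) (l := l) (k0 := k0) (N := N)
    (Sh := Sh) (D := ∑ i, low R0 lam i) (M0 := ex lam R0) h3 hR3 hR hSh2 h5 h6
  rw [← hA, ← hC] at b1
  rw [← hC] at b2
  have hk0R : 2 * R0 ≤ k0 := by omega
  have hroom := dec_room (e := e) (le_of_eq hE) (show A + N * (4 * Sh + (R1 - l)) + C ≤
    21 * (N * k0) by omega) hR3 hk0R hN h6
  have hX1 : R0 ≤ 50 * R0 * N := by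
    calc R0 = R0 * 1 := (Nat.mul_one _).symm
      _ ≤ (50 * R0) * N := Nat.mul_le_mul (by omega) hN
  have hX2 : (R0 + 1) * (50 * R0 * N) ≤ 2 * b := by
    refine le_trans (le_of_eq ?_) h8
    ring
  have hstore : (k0 + 2 * R0) * R0 ≤ ∑ j ∈ Icc 1 R0, j * e j := by
    have f1 : l * e l ≤ ∑ j ∈ Icc 1 R0, j * e j :=
      Finset.single_le_sum (f := fun j => j * e j) (fun _ _ => Nat.zero_le _)
        (by rw [mem_Icc]; omega)
    refine le_trans ?_ f1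
    rw [he, ee_l hlR, hA]
    have f2 : R0 ≤ N := by
      refine le_trans ?_ h5
      calc R0 ≤ 1 * (R0 + 1) := by omega
        _ ≤ a * (R0 + 1) := Nat.mul_le_mul_right _ ha
    calc (k0 + 2 * R0) * R0 ≤ (k0 + 2 * R0) * N := Nat.mul_le_mul_left _ f2
      _ = 1 * (1 * (N * (k0 + 2 * R0))) := by ring
      _ ≤ l * (20 * (N * (k0 + 2 * R0))) :=
          Nat.mul_le_mul (by omega) (Nat.mul_le_mul_right _ (by norm_num))
      _ = l * (20 * N * (k0 + 2 * R0)) := by ring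
  obtain ⟨B, k, mu, hmu, hsmu, hk1, hk2, hka, heq, hgap, hle⟩ := hDec a b n R0 (50 * R0 * N) k0 e
    lam hlam hsum (by omega) hRn hRa hk0R h4 hX1 heg hroom hX2 hstore
  clear hroom hX1 hX2 hstore heg
  have hνtel : ∀ i ≤ R0, ex mu i ≤ ex mu R0 + (∑ j ∈ Ioc i R0, e j + 2 * a * (R0 - i)) :=
    fun i hi => tel_le (ex mu) e (2 * a) R0 i hi fun j e1 e2 => (hgap j (by omega) e2).2
  have hνR0 : ex mu R0 = ex lam R0 := heq R0 le_rfl
  have hν0 : ex mu 0 ≤ A + N * (4 * Sh + (R1 - l)) + C + 2 * a * R0 + ex lam R0 := by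
    have f1 := hνtel 0 (Nat.zero_le _)
    have f2 : Ioc 0 R0 = Icc 1 R0 := by
      ext j
      simp only [mem_Ioc, mem_Icc]
      omega
    rw [f2, hE, hνR0, Nat.sub_zero] at f1
    clear * - f1
    omega
  have hνlow : ∀ i, R1 ≤ i → i ≤ R0 → ex mu i ≤ ex lam R0 + 2 * a * R0 := by
    intro i e1 e2
    have f1 := hνtel i e2
    have f2 : ∑ j ∈ Ioc i R0, e j = 0 := Finset.sum_eq_zero fun j hj => by
      rw [mem_Ioc] at hj
      rw [he]
      exact ee_zero hlR (by omega)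
    rw [f2, hνR0, Nat.zero_add] at f1
    exact f1.trans (Nat.add_le_add_left (Nat.mul_le_mul_left _ (Nat.sub_le _ _)) _)
  have hlow0 : ∑ i, low R0 mu i = ∑ i, low R0 lam i :=
    Finset.sum_congr rfl fun i _ => heq (R0 + i) (Nat.le_add_right _ _)
  have hlow1 := low_bound' hR hRn hνlow hlow0
  have hlow8 : 8 * ∑ i, low R1 mu i ≤ N * k0 := (Nat.mul_le_mul_left 8 hlow1).trans h6
  have hNb : N ≤ b := by
    have f1 : 2 * N ≤ 50 * R0 * (R0 + 1) * N := by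
      refine Nat.mul_le_mul_right _ ?_
      clear * - hR3
      nlinarith
    clear * - f1 h8
    omega
  have hexR : ex mu R1 ≤ a * b := by
    have f1 : ex mu R1 ≤ ∑ i, low R1 mu i := by
      have g2 := H503.ex_le_sum (low R1 mu) 0
      rwa [H503.ex_low, add_zero] at g2
    have f2 : N * k0 ≤ a * b := by
      calc N * k0 ≤ b * a := Nat.mul_le_mul hNb h4
        _ = a * b := Nat.mul_comm _ _
    omega
  obtain ⟨c13, hfin⟩ := final_cmp hR hRn hnJ hmu heq hka hexR htop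
  refine (hfin _ ?_).trans hle
  have hLev : Lev R1 l rho h := by
    refine ⟨hl2, hlR, hr1, hr2, hr3, ?_⟩
    intro i j _ _ _ _ e5
    rw [hh, hh, e5]
  have hhl : 4 * R1 + 2 ≤ h l := by
    rw [hh]
    exact hl_ge hR1pos hR hN (h1.trans (hgR1 l (by omega) hlR)) h3
  have hgl := (hgap l (by omega) (by omega)).1
  rw [he, ee_l hlR] at hgl
  have hgR := (hgap R1 (by omega) hR).1
  rw [he, ee_R hlR] at hgR
  have hνl : ex mu l ≤ ex mu R1 + (N * (4 * Sh + (R1 - l)) + C + 2 * a * (R1 - l)) := by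
    have f1 := tel_le (ex mu) e (2 * a) R1 l hlR.le fun j g1 g2 =>
      (hgap j (by omega) (by omega)).2
    rw [he, sum_ee_mid hlR hr2, ← hSh] at f1
    exact f1
  exact lb10_apply' hLB (M0 := ex lam R0) hmu hsmu hk1 hk2 hka hl2 hlR hR hRn hnJ hJN hLev hSh
    hSh1 hhl hA hC h3 h5 b1 b2 hgl
    (fun j e1 e2 => by
      refine le_trans (Nat.add_le_add_left ?_ _) (hgap j (by omega) (by omega)).1
      rw [he]
      exact le_ee e1 e2)
    hgR hν0 hνl hlow8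
    (lt_of_lt_of_le hcount (count_le hμa hg hR3 hl2 hlR hm hR hN hmax1 hr4 hh h7 hk1)) c13

end Vale.Agent.P181.SZN2
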