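import Vale.Agent.P181.SZ.Spec2
import Vale.Agent.P181.H699.CaseC

set_option autoImplicit false

/-!
# P181, SZ: tools for the lower bounds `LBC`, `LBR` (`n` rows, `J` letters, letters of size `≤ a`)
-/

namespace Vale.Agent.P181.SZN2

open Finset
open Vale.Agent.P181.T4 Vale.Agent.P181.T7 Vale.Agent.P181.T9 Vale.Agent.P181.H280
open Vale.Agent.P181.H463 Vale.Agent.P181.H699.CC

/-- the low part of the reduced shape -/
lemma low_bound' {a n R0 R1 D M : ℕ} (hR : R1 ≤ R0) (hRn : R0 < n) {mu : Fin n → ℕ}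
    (hνlow : ∀ i, R1 ≤ i → i ≤ R0 → ex mu i ≤ M + 2 * a * R0)
    (hlow0 : ∑ i, low R0 mu i = D) :
    ∑ i, low R1 mu i ≤ R0 * M + 2 * a * R0 ^ 2 + D := by
  have f1 := T4.sum_split (show R1 ≤ n by omega) mu
  have f2 := T4.sum_split hRn.le mu
  rw [f2, hlow0] at f1
  have f3 : ∑ i ∈ range R0, ex mu i = ∑ i ∈ range R1, ex mu i + ∑ i ∈ Ico R1 R0, ex mu i := by
    rw [Finset.range_eq_Ico, Finset.range_eq_Ico, Finset.sum_Ico_consecutive _ (by omega) hR]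
  have f4 : ∑ i ∈ Ico R1 R0, ex mu i ≤ R0 * (M + 2 * a * R0) := by
    refine (Finset.sum_le_card_nsmul _ _ (M + 2 * a * R0) fun i hi => ?_).trans ?_
    · rw [mem_Ico] at hi
      exact hνlow i hi.1 hi.2.le
    · rw [smul_eq_mul, Nat.card_Ico]
      exact Nat.mul_le_mul_right _ (Nat.sub_le _ _)
  have f5 : R0 * (M + 2 * a * R0) = R0 * M + 2 * a * R0 ^ 2 := by ring
  rw [f5] at f4
  omega

/-- The comparison of the two lower parts. -/
lemma lower_cmp' {n J r R M : ℕ} (hr : r ≤ R) (hR : R ≤ n) (hnJ : n ≤ J) {lam mu : Fin n → ℕ}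
    (hmu : Antitone mu) (heq : ∀ s, R ≤ s → ex mu s = ex lam s) (hM : ex mu r ≤ M) :
    gt (n - R) J (low R lam) ≤ (M + 1) ^ (J * (R - r)) * gt (n - r) J (low r mu) := by
  have h1 := cut_rev (a := J) (n := n - r) (R := R - r) (by omega) (by omega)
    (low_anti hmu r)
  have h2 : gt (n - r - (R - r)) J (low (R - r) (low r mu)) = gt (n - R) J (low R lam) := by
    apply H503.gt_congr (by omega)
    intro i
    rw [H503.ex_low, H503.ex_low, H503.ex_low, ← heq (R + i) (by omega)]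
    congr 1
    omega
  rw [h2] at h1
  refine h1.trans (Nat.mul_le_mul_right _ (Nat.pow_le_pow_left ?_ _))
  rw [H503.ex_low, add_zero]
  omega

/-- the last comparison -/
lemma final_cmp {a b n J R0 R1 k N T : ℕ} {lam mu : Fin n → ℕ} (hR : R1 ≤ R0) (hRn : R0 < n)
    (hnJ : n ≤ J) (hmu : Antitone mu) (heq : ∀ s, R0 ≤ s → ex mu s = ex lam s) (hka : k ≤ a)
    (hex : ex mu R1 ≤ a * b)
    (htop : (T : ℝ) * (((a * b : ℕ) : ℝ) + 1) ^ (J * R0) * ((a : ℝ) + 1) ^ J ≤ Real.exp N) :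
    (((T * (a * b + 1) ^ (J * (R0 - R1)) : ℕ) : ℝ) * ((k : ℝ) + 1) ^ J ≤ Real.exp N) ∧
      ∀ P : ℕ, T * (a * b + 1) ^ (J * (R0 - R1)) * gt (n - R1) J (low R1 mu) ≤ P →
        T * gt (n - R0) J (low R0 lam) ≤ P := by
  constructor
  · refine le_trans ?_ htop
    push_cast
    have f5 : (k : ℝ) ≤ a := by exact_mod_cast hka
    have f6 : (1 : ℝ) ≤ (a : ℝ) * b + 1 := by
      have : (0 : ℝ) ≤ (a : ℝ) * b := by positivity
      linarith
    have f7 : ((a : ℝ) * b + 1) ^ (J * (R0 - R1)) ≤ ((a : ℝ) * b + 1) ^ (J * R0) :=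
      pow_le_pow_right₀ f6 (Nat.mul_le_mul_left _ (Nat.sub_le _ _))
    have f8 : ((k : ℝ) + 1) ^ J ≤ ((a : ℝ) + 1) ^ J := by
      gcongr
    have f9 : (0 : ℝ) ≤ (T : ℝ) := Nat.cast_nonneg _
    gcongr
  · intro P hP
    refine le_trans ?_ hP
    rw [mul_assoc]
    exact Nat.mul_le_mul_left _ (lower_cmp' hR hRn.le hnJ hmu heq hex)

/-- the application of `LB10` to the reduced shape -/
lemma lb10_apply' (hLB : T9.LB10) {a n J R0 R1 l k0 k N B T Sh A C M0 : ℕ} {rho h : ℕ → ℕ}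
    {mu : Fin n → ℕ} (hmu : Antitone mu) (hsmu : ∑ i, mu i = k * B) (hk1 : k0 ≤ k)
    (hk2 : k ≤ k0 + 2 * R0) (hka : k ≤ a) (hl2 : 2 ≤ l) (hlR : l < R1) (hR : R1 ≤ R0)
    (hRn : R0 < n) (hnJ : n ≤ J) (hJN : J ≤ N)
    (hLev : Lev R1 l rho h) (hSh : Sh = ∑ i ∈ Ico l R1, h i)
    (hSh1 : 256 * R1 * Sh ≤ k0) (hhl : 4 * R1 + 2 ≤ h l) (hA : A = 20 * N * (k0 + 2 * R0))
    (hC : C = 46 * R1 * N) (h3 : 2000 * R0 ^ 3 ≤ k0) (h5 : a * (R0 + 1) ≤ N)
    (b1 : A + N * (4 * Sh + (R1 - l)) + C + 2 * a * R0 + M0 ≤ 21 * (N * k0))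
    (b2 : N * (4 * Sh + (R1 - l)) + C + 2 * a * R0 + M0 ≤ 20 * (N * k0))
    (hgl : ex mu l + A ≤ ex mu (l - 1))
    (hgj : ∀ j, l < j → j ≤ R1 → ex mu j + T9.mk R1 l N rho h j ≤ ex mu (j - 1))
    (hgR : ex mu R1 + (T9.mk R1 l N rho h R1 + C) ≤ ex mu (R1 - 1))
    (hν0 : ex mu 0 ≤ A + N * (4 * Sh + (R1 - l)) + C + 2 * a * R0 + M0)
    (hνl : ex mu l ≤ ex mu R1 + (N * (4 * Sh + (R1 - l)) + C + 2 * a * (R1 - l)))
    (hlow : 8 * ∑ i, low R1 mu i ≤ N * k0)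
    (hcount : 729 * N < (k / (32 * R1 ^ 2) + 1) ^ (l - 1) * ∏ i ∈ Ico l R1, (h i + 1))
    (c13 : (T : ℝ) * ((k : ℝ) + 1) ^ J ≤ Real.exp N) :
    T * gt (n - R1) J (low R1 mu) ≤ plethMult B k n mu := by
  have hkk : N * k0 ≤ N * k := Nat.mul_le_mul_left _ hk1
  refine hLB J k B n R1 l N T rho h mu hmu hsmu hnJ hJN (by omega) hLev ?_ ?_ ?_ ?_ hgj ?_ ?_ ?_
    ?_ ?_ hcount c13
  · -- 64 R (R + 5) ≤ k
    refine le_trans ?_ (h3.trans hk1)
    calc 64 * R1 * (R1 + 5) ≤ 64 * R0 * (R0 + 5) := by gcongr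
      _ ≤ 64 * R0 * (3 * R0) := Nat.mul_le_mul_left _ (by omega)
      _ = 192 * (R0 ^ 2 * 1) := by ring
      _ ≤ 2000 * (R0 ^ 2 * R0) := Nat.mul_le_mul (by norm_num) (Nat.mul_le_mul_left _ (by omega))
      _ = 2000 * R0 ^ 3 := by ring
  · -- k (R + 1) ≤ N
    exact (Nat.mul_le_mul hka (by omega)).trans h5
  · -- gap at l
    have f1 : 20 * N * k ≤ A := by
      rw [hA]
      exact Nat.mul_le_mul_left _ hk2
    omega
  · -- ex mu 0
    have f2 : 20 * (N * k0) ≤ A := by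
      rw [hA]
      have : 20 * N * (k0 + 2 * R0) = 20 * (N * k0) + 40 * (N * R0) := by ring
      omega
    omega
  · -- room at R
    have f2 : ex mu 0 ≤ 23 * (N * k) := by omega
    have f3 : 2 * R1 * ex mu 0 ≤ k * C := by
      calc 2 * R1 * ex mu 0 ≤ 2 * R1 * (23 * (N * k)) := Nat.mul_le_mul_left _ f2
        _ = k * (46 * R1 * N) := by ring
        _ = k * C := by rw [hC]
    calc 2 * R1 * ex mu 0 + k * T9.mk R1 l N rho h R1 ≤ k * C + k * T9.mk R1 l N rho h R1 :=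
          Nat.add_le_add_right f3 _
      _ = k * (T9.mk R1 l N rho h R1 + C) := by ring
      _ ≤ k * ex mu (R1 - 1) := Nat.mul_le_mul_left _ (by omega)
  · -- ex mu l
    rw [← hSh]
    have f3 : ex mu R1 ≤ ∑ i, low R1 mu i := by
      have g2 := H503.ex_le_sum (low R1 mu) 0
      rwa [H503.ex_low, add_zero] at g2
    have f4 : 2 * a * (R1 - l) ≤ 2 * N := by
      have g3 : a * (R1 - l) ≤ a * (R0 + 1) := Nat.mul_le_mul_left _ (by omega)
      have g4 : 2 * a * (R1 - l) = 2 * (a * (R1 - l)) := by ring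
      omega
    have f5 : N * (4 * Sh + 50 * R1) = N * (4 * Sh + (R1 - l)) + N * (50 * R1 - (R1 - l)) := by
      rw [← Nat.mul_add]
      congr 1
      omega
    have f6 : C + 2 * N ≤ N * (50 * R1 - (R1 - l)) := by
      rw [hC]
      calc 46 * R1 * N + 2 * N = N * (46 * R1 + 2) := by ring
        _ ≤ _ := Nat.mul_le_mul_left _ (by omega)
    rw [f5]
    omega
  · -- 4 R + 2 ≤ Σ h
    exact hhl.trans (Finset.single_le_sum (f := h) (fun _ _ => Nat.zero_le _)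
      (by rw [mem_Ico]; omega))
  · -- 16 R Σ (4 h + 1) ≤ k
    refine le_trans ?_ hk1
    have f1 : ∑ i ∈ Ico l R1, (4 * h i + 1) = 4 * Sh + (R1 - l) := by
      rw [Finset.sum_add_distrib, ← Finset.mul_sum, ← hSh, Finset.sum_const, Nat.card_Ico,
        smul_eq_mul, Nat.mul_one]
    rw [f1]
    have f2 : 16 * R1 * (4 * Sh + (R1 - l)) ≤ 64 * R1 * Sh + 16 * R1 ^ 2 := by
      calc 16 * R1 * (4 * Sh + (R1 - l)) ≤ 16 * R1 * (4 * Sh + R1) :=
            Nat.mul_le_mul_left _ (by omega)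
        _ = _ := by ring
    have f3 : 4 * (64 * R1 * Sh) ≤ k0 := by
      calc 4 * (64 * R1 * Sh) = 256 * R1 * Sh := by ring
        _ ≤ k0 := hSh1
    have f4 : 64 * R1 ^ 2 ≤ k0 := by
      refine le_trans ?_ h3
      calc 64 * R1 ^ 2 = 64 * (R1 ^ 2 * 1) := by ring
        _ ≤ 2000 * (R0 ^ 2 * R0) := by gcongr <;> omega
        _ = 2000 * R0 ^ 3 := by ring
    omega
  · -- 4 Σ low ≤ N k
    omega

end Vale.Agent.P181.SZN2
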